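import Mathlib

/-!
The integral of the Jacobian determinant of a Lipschitz map of `ℝ^m` which is the identity outside
a bounded open set equals the volume of that set.
-/

open Set MeasureTheory Matrix Module
open scoped NNReal Topology ENNReal

namespace Vale.Agent.P084

variable {m n : ℕ}

/-- The Jacobian matrix. -/
noncomputable def jac (F : (Fin m → ℝ) → (Fin n → ℝ)) (x : Fin m → ℝ) :
    Matrix (Fin n) (Fin m) ℝ :=
  LinearMap.toMatrix' (fderiv ℝ F x : (Fin m → ℝ) →ₗ[ℝ] (Fin n → ℝ))

lemma jac_mulVec (F : (Fin m → ℝ) → (Fin n → ℝ)) (x v : Fin m → ℝ) :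
    jac F x *ᵥ v = fderiv ℝ F x v :=
  LinearMap.toMatrix'_mulVec _ _

lemma jac_apply (F : (Fin m → ℝ) → (Fin n → ℝ)) (x : Fin m → ℝ) (i : Fin n) (j : Fin m) :
    jac F x i j = fderiv ℝ F x (Pi.single j 1) i := by
  rw [← jac_mulVec]; simp

lemma measurable_jac (F : (Fin m → ℝ) → (Fin n → ℝ)) (i : Fin n) (j : Fin m) :
    Measurable fun x => jac F x i j := by
  simp only [jac_apply]
  exact (measurable_pi_apply i).comp (measurable_fderiv_apply_const ℝ F _)

lemma abs_jac_le {F : (Fin m → ℝ) → (Fin n → ℝ)} {K : ℝ≥0} (hF : LipschitzWith K F)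
    (x : Fin m → ℝ) (i : Fin n) (j : Fin m) : |jac F x i j| ≤ K := by
  rw [jac_apply]
  have h2 : ‖(Pi.single j 1 : Fin m → ℝ)‖ ≤ 1 := by simp [Pi.norm_single]
  calc |fderiv ℝ F x (Pi.single j 1) i| ≤ ‖fderiv ℝ F x (Pi.single j 1)‖ := by
        simpa only [Real.norm_eq_abs] using norm_le_pi_norm (fderiv ℝ F x (Pi.single j 1)) i
    _ ≤ ‖fderiv ℝ F x‖ * ‖(Pi.single j 1 : Fin m → ℝ)‖ := ContinuousLinearMap.le_opNorm _ _
    _ ≤ K * 1 := mul_le_mul (norm_fderiv_le_of_lipschitz ℝ hF) h2 (norm_nonneg _) K.2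
    _ = K := mul_one _

lemma volume_lipschitz_image_null {g : (Fin m → ℝ) → (Fin m → ℝ)} {K : ℝ≥0}
    (hg : LipschitzWith K g) {s : Set (Fin m → ℝ)} (hs : volume s = 0) : volume (g '' s) = 0 := by
  have h := hg.hausdorffMeasure_image_le (d := (Fintype.card (Fin m) : ℝ)) (Nat.cast_nonneg _) s
  rw [hausdorffMeasure_pi_real, hs, mul_zero] at h
  exact le_antisymm h (zero_le)

/-- The expansion of `det (1 + t • A)` in powers of `t`. -/
noncomputable def detCoeff (A : Matrix (Fin m) (Fin m) ℝ)
    (q : Equiv.Perm (Fin m) × Finset (Fin m)) : ℝ :=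
  ((Equiv.Perm.sign q.1 : ℤ) : ℝ) * ((∏ i ∈ q.2, A (q.1 i) i) *
    ∏ i ∈ Finset.univ \ q.2, (1 : Matrix (Fin m) (Fin m) ℝ) (q.1 i) i)

lemma det_one_add_smul_expand (A : Matrix (Fin m) (Fin m) ℝ) (t : ℝ) :
    (1 + t • A).det
      = ∑ q : Equiv.Perm (Fin m) × Finset (Fin m), t ^ q.2.card * detCoeff A q := by
  rw [det_apply', Fintype.sum_prod_type]
  refine Finset.sum_congr rfl fun σ _ => ?_
  have h : ∀ i, (1 + t • A) (σ i) i = t * A (σ i) i + (1 : Matrix (Fin m) (Fin m) ℝ) (σ i) i := by
    intro i; simp [add_comm]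
  simp only [h, Finset.prod_add, Finset.mul_sum, Finset.powerset_univ, detCoeff]
  refine Finset.sum_congr rfl fun s _ => ?_
  rw [Finset.prod_mul_distrib, Finset.prod_const]
  ring

theorem integral_det_jac {F : (Fin m → ℝ) → (Fin m → ℝ)} {K : ℝ≥0} (hF : LipschitzWith K F)
    {U : Set (Fin m → ℝ)} (hU : IsOpen U) (hb : Bornology.IsBounded U)
    (hid : ∀ x ∉ U, F x = x) :
    IntegrableOn (fun x => (jac F x).det) U ∧ ∫ x in U, (jac F x).det = volume.real U := by
  let φ : (Fin m → ℝ) → (Fin m → ℝ) := fun x => F x - x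
  have hφ : LipschitzWith (K + 1) φ := hF.sub LipschitzWith.id
  have hφ0 : ∀ x ∉ U, φ x = 0 := fun x hx => sub_eq_zero.2 (hid x hx)
  let A : (Fin m → ℝ) → Matrix (Fin m) (Fin m) ℝ := fun x => jac φ x
  have hfin : volume U < ⊤ := hb.measure_lt_top
  have : IsFiniteMeasure (volume.restrict U) := isFiniteMeasure_restrict.2 hfin.ne
  have hint : ∀ q, IntegrableOn (fun x => detCoeff (A x) q) U := by
    intro q
    refine Integrable.of_bound (Measurable.aestronglyMeasurable ?_)
      ((K + 1 : ℝ≥0) ^ q.2.card) (Filter.Eventually.of_forall fun x => ?_)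
    · exact measurable_const.mul
        ((Finset.measurable_prod _ fun i _ => measurable_jac φ _ _).mul measurable_const)
    · simp only [detCoeff, Real.norm_eq_abs, abs_mul, Finset.abs_prod]
      have h1 : |((Equiv.Perm.sign q.1 : ℤ) : ℝ)| = 1 := by
        rcases Int.units_eq_one_or (Equiv.Perm.sign q.1) with h | h <;> simp [h]
      have h2 : ∏ i ∈ Finset.univ \ q.2, |(1 : Matrix (Fin m) (Fin m) ℝ) (q.1 i) i| ≤ 1 :=
        Finset.prod_le_one (fun i _ => abs_nonneg _)
          (fun i _ => by rw [Matrix.one_apply]; split_ifs <;> simp)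
      have h3 : ∏ i ∈ q.2, |A x (q.1 i) i| ≤ ((K + 1 : ℝ≥0) : ℝ) ^ q.2.card := by
        refine (Finset.prod_le_prod (fun i _ => abs_nonneg _)
          (fun i _ => abs_jac_le hφ x _ _)).trans (le_of_eq ?_)
        simp
      rw [h1, one_mul]
      calc _ ≤ ((K + 1 : ℝ≥0) : ℝ) ^ q.2.card * 1 :=
            mul_le_mul h3 h2 (Finset.prod_nonneg fun i _ => abs_nonneg _) (by positivity)
        _ = _ := mul_one _
  let P : ℝ → ℝ := fun t => ∫ x in U, ((1 : Matrix (Fin m) (Fin m) ℝ) + t • A x).det
  have hintP : ∀ t : ℝ, IntegrableOn (fun x => ((1 : Matrix (Fin m) (Fin m) ℝ) + t • A x).det) U := by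
    intro t
    simp only [det_one_add_smul_expand]
    exact integrable_finsetSum _ fun q _ => (hint q).const_mul _
  -- constancy for small t
  have hsmall : ∀ t : ℝ, 0 < t → t * (K + 1) < 1 → P t = volume.real U := by
    intro t ht0 ht
    let g : (Fin m → ℝ) → (Fin m → ℝ) := fun x => x + t • φ x
    have hginj : Function.Injective g := by
      intro x y hxy
      have h1 : x - y = t • (φ y - φ x) := by
        rw [smul_sub, sub_eq_sub_iff_add_eq_add, add_comm (t • φ y)]
        exact hxy
      have h2 : ‖x - y‖ ≤ t * (K + 1) * ‖x - y‖ := by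
        conv_lhs => rw [h1]
        rw [norm_smul, Real.norm_eq_abs, abs_of_pos ht0, mul_assoc]
        refine mul_le_mul_of_nonneg_left ?_ ht0.le
        simpa [dist_eq_norm, norm_sub_rev] using hφ.dist_le_mul y x
      have : ‖x - y‖ = 0 := by nlinarith [norm_nonneg (x - y)]
      exact sub_eq_zero.1 (norm_eq_zero.1 this)
    have hgid : ∀ x ∉ U, g x = x := fun x hx => by simp [g, hφ0 x hx]
    have hgU : g '' U = U := by
      apply Set.Subset.antisymm
      · rintro _ ⟨x, hx, rfl⟩
        by_contra hgx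
        exact hgx ((hginj (hgid _ hgx)).symm ▸ hx)
      · intro y hy
        have hc : ContractingWith (t.toNNReal * (K + 1)) (fun z => y - t • φ z) := by
          refine ⟨by rw [← NNReal.coe_lt_coe]; simpa [ht0.le] using ht, ?_⟩
          refine LipschitzWith.of_dist_le_mul fun a b => ?_
          rw [dist_eq_norm, sub_sub_sub_cancel_left, ← smul_sub, norm_smul, Real.norm_eq_abs,
            abs_of_pos ht0]
          simp only [NNReal.coe_mul, Real.coe_toNNReal _ ht0.le, mul_assoc]
          refine mul_le_mul_of_nonneg_left ?_ ht0.le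
          simpa [dist_eq_norm, norm_sub_rev] using hφ.dist_le_mul a b
        let z := hc.fixedPoint
        have hz : y - t • φ z = z := hc.fixedPoint_isFixedPt
        have hgz : g z = y := by
          change z + t • φ z = y
          nth_rewrite 1 [← hz]
          abel
        refine ⟨z, ?_, hgz⟩
        by_contra hzU
        exact hzU (((hgid z hzU).symm.trans hgz).symm ▸ hy)
    have hgl : LipschitzWith (1 + t.toNNReal * (K + 1)) g := by
      refine LipschitzWith.id.add (LipschitzWith.of_dist_le_mul fun a b => ?_)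
      rw [dist_smul₀, Real.norm_eq_abs, abs_of_pos ht0]
      simp only [NNReal.coe_mul, Real.coe_toNNReal _ ht0.le, mul_assoc]
      exact mul_le_mul_of_nonneg_left (hφ.dist_le_mul a b) ht0.le
    let D := U ∩ {x | DifferentiableAt ℝ φ x}
    have hD : MeasurableSet D := hU.measurableSet.inter (measurableSet_of_differentiableAt ℝ φ)
    have hnull : volume (U \ D) = 0 := by
      refine measure_mono_null ?_ (ae_iff.1 (hφ.ae_differentiableAt (μ := volume)))
      intro x hx
      simp only [D, Set.mem_sdiff, Set.mem_inter_iff] at hx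
      exact fun h => hx.2 ⟨hx.1, h⟩
    have hDU : D =ᵐ[volume] U := by
      refine ae_eq_set.2 ⟨?_, hnull⟩
      simp [D, Set.sdiff_eq_empty.2 Set.inter_subset_left]
    have himage : volume (g '' D) = volume U := by
      refine le_antisymm ?_ ?_
      · exact (measure_mono (Set.image_mono inter_subset_left)).trans (le_of_eq (by rw [hgU]))
      · calc volume U = volume (g '' U) := by rw [hgU]
          _ ≤ volume (g '' D ∪ g '' (U \ D)) := by
              refine measure_mono ?_
              rw [← image_union]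
              exact Set.image_mono (by intro x hx; by_cases h : x ∈ D <;> simp [h, hx])
          _ ≤ volume (g '' D) + volume (g '' (U \ D)) := measure_union_le _ _
          _ = volume (g '' D) := by rw [volume_lipschitz_image_null hgl hnull, add_zero]
    let g' : (Fin m → ℝ) → ((Fin m → ℝ) →L[ℝ] (Fin m → ℝ)) := fun x =>
      ContinuousLinearMap.id ℝ _ + t • fderiv ℝ φ x
    have hg' : ∀ x ∈ D, HasFDerivWithinAt g (g' x) D x := fun x hx =>
      ((hasFDerivAt_id x).add (hx.2.hasFDerivAt.const_smul t)).hasFDerivWithinAt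
    have hdet : ∀ x, (g' x).det = ((1 : Matrix (Fin m) (Fin m) ℝ) + t • A x).det := by
      intro x
      rw [ContinuousLinearMap.det, ← LinearMap.det_toMatrix']
      simp [g', A, jac, LinearMap.toMatrix'_id]
    have hpos : ∀ x, 0 < ((1 : Matrix (Fin m) (Fin m) ℝ) + t • A x).det := by
      intro x
      have hne : ∀ s ∈ Icc (0:ℝ) 1, ((1 : Matrix (Fin m) (Fin m) ℝ) + (s * t) • A x).det ≠ 0 := by
        intro s hs h0
        obtain ⟨v, hv, hv0⟩ := exists_mulVec_eq_zero_iff.2 h0
        rw [add_mulVec, one_mulVec, smul_mulVec] at hv0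
        have h1 : ‖v‖ = ‖(s * t) • (A x *ᵥ v)‖ :=
          (congrArg norm (eq_neg_of_add_eq_zero_left hv0)).trans (norm_neg _)
        have h2 : ‖A x *ᵥ v‖ ≤ (K + 1) * ‖v‖ := by
          simp only [A, jac_mulVec]
          refine (ContinuousLinearMap.le_opNorm _ _).trans ?_
          exact mul_le_mul_of_nonneg_right
            (by simpa using norm_fderiv_le_of_lipschitz ℝ hφ (x₀ := x)) (norm_nonneg _)
        rw [norm_smul, Real.norm_eq_abs, abs_of_nonneg (mul_nonneg hs.1 ht0.le)] at h1
        have h3 : s * t ≤ t := mul_le_of_le_one_left ht0.le hs.2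
        have h4 : 0 < ‖v‖ := norm_pos_iff.2 hv
        nlinarith [norm_nonneg (A x *ᵥ v)]
      have hcont : ContinuousOn (fun s : ℝ => (1 + (s * t) • A x).det) (Icc 0 1) := by
        refine (Continuous.matrix_det ?_).continuousOn
        fun_prop
      by_contra hcon
      rw [not_lt] at hcon
      have h0 : (0:ℝ) ∈ Icc ((1 + ((1:ℝ) * t) • A x).det) ((1 + ((0:ℝ) * t) • A x).det) := by
        constructor
        · simpa using hcon
        · simp
      obtain ⟨s, hs, hs0⟩ := intermediate_value_Icc' (by norm_num) hcont h0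
      exact hne s hs hs0
    have key := lintegral_abs_det_fderiv_eq_addHaar_image volume hD hg' hginj.injOn
    simp only [hdet, fun x => abs_of_pos (hpos x)] at key
    have hset : ∫ x in U, ((1 : Matrix (Fin m) (Fin m) ℝ) + t • A x).det = ∫ x in D, ((1 : Matrix (Fin m) (Fin m) ℝ) + t • A x).det :=
      (setIntegral_congr_set hDU).symm
    change ∫ x in U, ((1 : Matrix (Fin m) (Fin m) ℝ) + t • A x).det = _
    rw [hset, integral_eq_lintegral_of_nonneg_ae
      (Filter.Eventually.of_forall fun x => (hpos x).le)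
      ((hintP t).mono_set inter_subset_left).aestronglyMeasurable, key, himage]
    rfl
  -- polynomial identity
  let Q : Polynomial ℝ :=
    ∑ q : Equiv.Perm (Fin m) × Finset (Fin m),
      Polynomial.C (∫ x in U, detCoeff (A x) q) * Polynomial.X ^ q.2.card
  have hQ : ∀ t, Q.eval t = P t := by
    intro t
    simp only [P, det_one_add_smul_expand]
    rw [integral_finsetSum _ fun q _ => (hint q).const_mul _]
    simp only [Q, Polynomial.eval_finsetSum, Polynomial.eval_mul, Polynomial.eval_C,
      Polynomial.eval_pow, Polynomial.eval_X, integral_const_mul]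
    exact Finset.sum_congr rfl fun q _ => mul_comm _ _
  have hQc : Q = Polynomial.C (volume.real U) := by
    apply Polynomial.eq_of_infinite_eval_eq
    refine Set.Infinite.mono ?_ (Ioo_infinite (inv_pos.2 (by positivity : (0:ℝ) < K + 1)))
    intro t ht
    simp only [Set.mem_ofPred_eq, Polynomial.eval_C, hQ]
    refine hsmall t ht.1 ?_
    exact (mul_lt_mul_of_pos_right ht.2 (by positivity)).trans_eq (inv_mul_cancel₀ (by positivity))
  have hP1 : P 1 = volume.real U := by rw [← hQ, hQc, Polynomial.eval_C]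
  have hD1 : ∀ᵐ x ∂(volume.restrict U), (1 + (1:ℝ) • A x).det = (jac F x).det := by
    filter_upwards [ae_restrict_of_ae (hF.ae_differentiableAt (μ := volume))] with x hx
    congr 1
    simp only [A, φ, jac, one_smul]
    rw [fderiv_fun_sub hx differentiableAt_fun_id, fderiv_id']
    simp [LinearMap.toMatrix'_id]
  exact ⟨(hintP 1).congr hD1, (integral_congr_ae hD1).symm.trans hP1⟩

end Vale.Agent.P084
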