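import Vale.Agent.P084.John
import Vale.Agent.P084.Jacobian

/-!
The calibrated filling map and the pointwise estimates for it.
-/

open Set MeasureTheory Matrix Module
open scoped NNReal Topology ENNReal MatrixOrder

namespace Vale.Agent.P084

variable {X Y : Type*} [NormedAddCommGroup X] [NormedSpace ℝ X]
  [NormedAddCommGroup Y] [NormedSpace ℝ Y] {n m : ℕ}

/-- A positive semidefinite matrix of trace at most the dimension has determinant at most one,
with equality only for the identity. -/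
lemma gram_det_le (J : Matrix (Fin n) (Fin n) ℝ) (hJ : ∑ i, ∑ j, J i j ^ 2 ≤ n) :
    |J.det| ≤ 1 ∧ (|J.det| = 1 → Jᵀ * J = 1) := by
  have hH : (Jᵀ * J).IsHermitian := by
    simp [Matrix.IsHermitian, conjTranspose_eq_transpose_of_trivial, transpose_mul]
  have hpsd : (Jᵀ * J).PosSemidef := by
    simpa [conjTranspose_eq_transpose_of_trivial] using posSemidef_conjTranspose_mul_self J
  have hnn : ∀ i, 0 ≤ hH.eigenvalues i := hpsd.eigenvalues_nonneg
  have htr : ∑ i, hH.eigenvalues i ≤ n := by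
    have h1 := hH.trace_eq_sum_eigenvalues
    simp only [RCLike.ofReal_real_eq_id, id_eq] at h1
    rw [← h1]
    refine le_of_eq_of_le ?_ hJ
    rw [Finset.sum_comm]
    simp [Matrix.trace, Matrix.mul_apply, pow_two]
  have hdet : J.det ^ 2 = ∏ i, hH.eigenvalues i := by
    have h1 := hH.det_eq_prod_eigenvalues
    simp only [RCLike.ofReal_real_eq_id, id_eq] at h1
    rw [← h1, det_mul, det_transpose, pow_two]
  have hexp : ∏ i, Real.exp (hH.eigenvalues i - 1) ≤ 1 := by
    rw [← Real.exp_sum, Real.exp_le_one_iff, Finset.sum_sub_distrib]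
    simp only [Finset.sum_const, Finset.card_univ, Fintype.card_fin, nsmul_eq_mul, mul_one]
    linarith
  have hle : ∀ i, hH.eigenvalues i ≤ Real.exp (hH.eigenvalues i - 1) := fun i => by
    linarith [Real.add_one_le_exp (hH.eigenvalues i - 1)]
  have hprod : ∏ i, hH.eigenvalues i ≤ ∏ i, Real.exp (hH.eigenvalues i - 1) :=
    Finset.prod_le_prod (fun i _ => hnn i) (fun i _ => hle i)
  refine ⟨abs_le_one_iff_mul_self_le_one.2 (by nlinarith), fun h => ?_⟩
  have hp1 : ∏ i, hH.eigenvalues i = 1 := by rw [← hdet, ← sq_abs, h, one_pow]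
  have hev : ∀ i, hH.eigenvalues i = 1 := by
    intro i
    by_contra hi
    have hpos : ∀ j, 0 < hH.eigenvalues j := by
      intro j
      refine (hnn j).lt_of_ne fun hj => ?_
      rw [Finset.prod_eq_zero (Finset.mem_univ j) hj.symm] at hp1
      norm_num at hp1
    have : ∏ j, hH.eigenvalues j < ∏ j, Real.exp (hH.eigenvalues j - 1) :=
      Finset.prod_lt_prod (fun j _ => hpos j) (fun j _ => hle j)
        ⟨i, Finset.mem_univ i, by
          linarith [Real.add_one_lt_exp (sub_ne_zero.2 hi)]⟩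
    linarith
  have hspec := hH.spectral_theorem
  rw [show hH.eigenvalues = fun _ => (1:ℝ) from funext hev] at hspec
  simpa [Function.comp_def, RCLike.ofReal_real_eq_id] using hspec

lemma exists_mulVec_eq_zero_of_lt (J : Matrix (Fin n) (Fin m) ℝ) (h : n < m) :
    ∃ v, v ≠ 0 ∧ J *ᵥ v = 0 := by
  have hne : LinearMap.ker J.mulVecLin ≠ ⊥ :=
    LinearMap.ker_ne_bot_of_finrank_lt (by simpa using h)
  obtain ⟨v, hv, hv0⟩ := Submodule.exists_mem_ne_zero_of_ne_bot hne
  exact ⟨v, hv0, by simpa using hv⟩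

/-- Directional estimate for a derivative, given a two-point estimate. -/
lemma abs_fderiv_le {E F : Type*} [NormedAddCommGroup E] [NormedSpace ℝ E]
    [NormedAddCommGroup F] [NormedSpace ℝ F] {h : E → ℝ} {R : E → F} {g : E →L[ℝ] ℝ}
    {L : E →L[ℝ] F} {p : E} (P : F → ℝ) (hP : Continuous P)
    (hPs : ∀ (c : ℝ) z, P (c • z) = |c| * P z)
    (hb : ∀ q, |h q - h p| ≤ P (R q - R p)) (hh : HasFDerivAt h g p) (hR : HasFDerivAt R L p)
    (u : E) : |g u| ≤ P (L u) := by
  have h1 := ((hh.hasLineDerivAt u).tendsto_slope_zero).abs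
  have h2 := (hP.tendsto _).comp (hR.hasLineDerivAt u).tendsto_slope_zero
  refine le_of_tendsto_of_tendsto h1 h2 (Filter.Eventually.of_forall fun t => ?_)
  simp only [Function.comp_apply, smul_eq_mul, abs_mul, hPs]
  exact mul_le_mul_of_nonneg_left (hb _) (abs_nonneg _)

/-- The map assembled from scalar functions attached to the John functionals. -/
noncomputable def calib (JX : JohnData X n) (h : Fin JX.N → (Fin m → ℝ) → ℝ) :
    (Fin m → ℝ) → (Fin n → ℝ) :=
  fun q => ∑ k, (JX.w k * h k q) • JX.v k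

lemma calib_recover (JX : JohnData X n) (z : Fin n → ℝ) :
    ∑ k, (JX.w k * (JX.v k ⬝ᵥ z)) • JX.v k = z := by
  ext i
  simp only [Finset.sum_apply, Pi.smul_apply, smul_eq_mul, dotProduct, Finset.mul_sum,
    Finset.sum_mul]
  rw [Finset.sum_comm]
  calc ∑ j, ∑ k, JX.w k * (JX.v k j * z j) * JX.v k i
      = ∑ j, (∑ k, JX.w k * JX.v k i * JX.v k j) * z j := by
        simp only [Finset.sum_mul]
        exact Finset.sum_congr rfl fun j _ => Finset.sum_congr rfl fun k _ => by ring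
    _ = z i := by simp [JX.iso]

/-- McShane extensions of the John functionals pulled back by an isometry on a subset. -/
lemma exists_calib (JX : JohnData X n) (JY : JohnData Y m) {S : Set Y} {ψ : Y → X}
    (hψ : ∀ y ∈ S, ∀ y' ∈ S, dist (ψ y) (ψ y') = dist y y') :
    ∃ h : Fin JX.N → (Fin m → ℝ) → ℝ,
      (∀ k a b, |h k a - h k b| ≤ ‖JY.e.symm (a - b)‖) ∧
      ∀ y ∈ S, calib JX h (JY.e y) = JX.e (ψ y) := by
  have hk : ∀ k, ∃ g : Y → ℝ, LipschitzWith 1 g ∧
      EqOn (fun y => JX.v k ⬝ᵥ JX.e (ψ y)) g S := by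
    intro k
    refine LipschitzOnWith.extend_real ?_
    refine LipschitzOnWith.of_dist_le_mul fun y hy y' hy' => ?_
    rw [NNReal.coe_one, one_mul, Real.dist_eq, ← dotProduct_sub, ← map_sub, ← hψ y hy y' hy',
      dist_eq_norm]
    exact JX.v_le k _
  choose g hg hgS using hk
  refine ⟨fun k a => g k (JY.e.symm a), fun k a b => ?_, fun y hy => ?_⟩
  · have := (hg k).dist_le_mul (JY.e.symm a) (JY.e.symm b)
    rw [NNReal.coe_one, one_mul, Real.dist_eq, dist_eq_norm, ← map_sub] at this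
    exact this
  · rw [← calib_recover JX (JX.e (ψ y))]
    simp only [calib, ContinuousLinearEquiv.symm_apply_apply]
    exact Finset.sum_congr rfl fun k _ => by rw [← hgS k hy]

section

variable (JX : JohnData X n) (JY : JohnData Y m) {h : Fin JX.N → (Fin m → ℝ) → ℝ}
  (hh : ∀ k a b, |h k a - h k b| ≤ ‖JY.e.symm (a - b)‖)
include hh

lemma exists_lipschitz_h (k : Fin JX.N) : ∃ C, LipschitzWith C (h k) := by
  refine ⟨‖(JY.e.symm : (Fin m → ℝ) →L[ℝ] Y)‖₊, LipschitzWith.of_dist_le_mul fun a b => ?_⟩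
  rw [Real.dist_eq, dist_eq_norm, coe_nnnorm]
  exact (hh k a b).trans (ContinuousLinearMap.le_opNorm (JY.e.symm : (Fin m → ℝ) →L[ℝ] Y) _)

lemma exists_lipschitz_calib : ∃ C, LipschitzWith C (calib JX h) := by
  let c := ‖(JY.e.symm : (Fin m → ℝ) →L[ℝ] Y)‖
  refine ⟨(∑ k, JX.w k * c * ‖JX.v k‖).toNNReal, LipschitzWith.of_dist_le_mul fun a b => ?_⟩
  rw [Real.coe_toNNReal _ (Finset.sum_nonneg fun k _ =>
    mul_nonneg (mul_nonneg (JX.w_nonneg k) (norm_nonneg _)) (norm_nonneg _))]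
  simp only [dist_eq_norm, calib, ← Finset.sum_sub_distrib, ← sub_smul, ← mul_sub, Finset.sum_mul]
  refine (norm_sum_le _ _).trans (Finset.sum_le_sum fun k _ => ?_)
  rw [norm_smul, Real.norm_eq_abs, abs_mul, abs_of_nonneg (JX.w_nonneg k)]
  have := (hh k a b).trans
    (ContinuousLinearMap.le_opNorm (JY.e.symm : (Fin m → ℝ) →L[ℝ] Y) (a - b))
  calc JX.w k * |h k a - h k b| * ‖JX.v k‖ ≤ JX.w k * (c * ‖a - b‖) * ‖JX.v k‖ := by
        have := JX.w_nonneg k; gcongr
    _ = _ := by ring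

lemma jac_calib_bound {p : Fin m → ℝ} (hp : ∀ k, DifferentiableAt ℝ (h k) p) :
    ∑ i, ∑ j, jac (calib JX h) p i j ^ 2 ≤ m := by
  let G : Fin JX.N → Fin m → ℝ := fun k j => fderiv ℝ (h k) p (Pi.single j 1)
  have hJ : ∀ i j, jac (calib JX h) p i j = ∑ k, JX.w k * G k j * JX.v k i := by
    intro i j
    have hd : HasFDerivAt (calib JX h)
        (∑ k, (JX.w k • fderiv ℝ (h k) p).smulRight (JX.v k)) p :=
      HasFDerivAt.fun_sum fun k _ => ((hp k).hasFDerivAt.const_mul (JX.w k)).smul_const (JX.v k)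
    rw [jac_apply, hd.fderiv]
    simp [G, Finset.sum_apply]
  have hlin : ∀ k u, fderiv ℝ (h k) p u = G k ⬝ᵥ u := by
    intro k u
    have hu : u = ∑ j, u j • (Pi.single j 1 : Fin m → ℝ) := by
      ext j; simp [Finset.sum_apply, Pi.single_apply]
    conv_lhs => rw [hu, map_sum]
    simp [G, dotProduct, mul_comm]
  have hG : ∀ k, G k ⬝ᵥ G k ≤ m := by
    intro k
    refine JY.bound _ fun x => ?_
    rw [← hlin]
    refine (abs_fderiv_le (fun z => ‖JY.e.symm z‖) (by fun_prop)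
      (fun c z => by simp [norm_smul]) (fun q => hh k q p) (hp k).hasFDerivAt
      (hasFDerivAt_id p) (JY.e x)).trans (le_of_eq (by simp))
  have hcol : ∀ j, ∑ i, jac (calib JX h) p i j ^ 2 ≤ ∑ k, JX.w k * G k j ^ 2 := by
    intro j
    set q : Fin n → ℝ := fun i => jac (calib JX h) p i j with hq
    have h1 : ∀ i, q i = ∑ k, JX.w k * G k j * JX.v k i := fun i => hJ i j
    have h2 : ∑ k, JX.w k * G k j * (JX.v k ⬝ᵥ q) = q ⬝ᵥ q := by
      simp only [dotProduct, Finset.mul_sum]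
      rw [Finset.sum_comm]
      refine Finset.sum_congr rfl fun i _ => ?_
      conv_rhs => arg 1; rw [h1]
      rw [Finset.sum_mul]
      exact Finset.sum_congr rfl fun k _ => by ring
    have h3 : ∑ k, JX.w k * (JX.v k ⬝ᵥ q) ^ 2 = q ⬝ᵥ q := by
      have := congrArg (fun z => q ⬝ᵥ z) (calib_recover JX q)
      simp only [dotProduct_sum, dotProduct_smul, smul_eq_mul] at this
      rw [← this]
      exact Finset.sum_congr rfl fun k _ => by rw [dotProduct_comm q (JX.v k)]; ring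
    have h4 : 0 ≤ ∑ k, JX.w k * (G k j - JX.v k ⬝ᵥ q) ^ 2 :=
      Finset.sum_nonneg fun k _ => mul_nonneg (JX.w_nonneg k) (sq_nonneg _)
    have h5 : ∑ k, JX.w k * (G k j - JX.v k ⬝ᵥ q) ^ 2 = ∑ k, JX.w k * G k j ^ 2
        - 2 * ∑ k, JX.w k * G k j * (JX.v k ⬝ᵥ q) + ∑ k, JX.w k * (JX.v k ⬝ᵥ q) ^ 2 := by
      rw [Finset.mul_sum, ← Finset.sum_sub_distrib, ← Finset.sum_add_distrib]
      exact Finset.sum_congr rfl fun k _ => by ring
    have h6 : q ⬝ᵥ q = ∑ i, jac (calib JX h) p i j ^ 2 := by simp [dotProduct, hq, pow_two]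
    linarith
  calc ∑ i, ∑ j, jac (calib JX h) p i j ^ 2 = ∑ j, ∑ i, jac (calib JX h) p i j ^ 2 :=
        Finset.sum_comm
    _ ≤ ∑ j, ∑ k, JX.w k * G k j ^ 2 := Finset.sum_le_sum fun j _ => hcol j
    _ = ∑ k, JX.w k * (G k ⬝ᵥ G k) := by
        rw [Finset.sum_comm]; simp [dotProduct, Finset.mul_sum, pow_two]
    _ ≤ ∑ k, JX.w k * (m : ℝ) :=
        Finset.sum_le_sum fun k _ => mul_le_mul_of_nonneg_left (hG k) (JX.w_nonneg k)
    _ = m := by rw [← Finset.sum_mul, JX.w_sum, one_mul]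

end

/-- Chain estimate: the derivative of the return map vanishes on the kernel of the derivative of
the first map, and factors through it with small Hilbert-Schmidt norm. -/
lemma jac_comp_bound (JX : JohnData X n) (JY : JohnData Y m)
    {k : Fin JY.N → (Fin n → ℝ) → ℝ} (hk : ∀ l a b, |k l a - k l b| ≤ ‖JX.e.symm (a - b)‖)
    {R : (Fin m → ℝ) → (Fin n → ℝ)} {p : Fin m → ℝ} (hR : DifferentiableAt ℝ R p)
    (hkR : ∀ l, DifferentiableAt ℝ (fun q => k l (R q)) p) :
    (∀ v, jac R p *ᵥ v = 0 → jac (fun q => calib JY k (R q)) p *ᵥ v = 0) ∧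
    (n = m → ∀ B : Matrix (Fin m) (Fin n) ℝ, jac R p * B = 1 →
      ∑ i, ∑ j, (jac (fun q => calib JY k (R q)) p * B) i j ^ 2 ≤ n) := by
  let Γ : Fin JY.N → ((Fin m → ℝ) →L[ℝ] ℝ) := fun l => fderiv ℝ (fun q => k l (R q)) p
  have hΓ : ∀ l u, |Γ l u| ≤ ‖JX.e.symm (jac R p *ᵥ u)‖ := by
    intro l u
    rw [jac_mulVec]
    exact abs_fderiv_le (fun z => ‖JX.e.symm z‖) (by fun_prop) (fun c z => by simp [norm_smul])
      (fun q => hk l (R q) (R p)) (hkR l).hasFDerivAt hR.hasFDerivAt u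
  have hJ : ∀ u, jac (fun q => calib JY k (R q)) p *ᵥ u
      = ∑ l, (JY.w l * Γ l u) • JY.v l := by
    intro u
    have hd : HasFDerivAt (fun q => calib JY k (R q))
        (∑ l, (JY.w l • Γ l).smulRight (JY.v l)) p :=
      HasFDerivAt.fun_sum fun l _ => ((hkR l).hasFDerivAt.const_mul (JY.w l)).smul_const (JY.v l)
    rw [jac_mulVec, hd.fderiv]
    simp
  refine ⟨fun v hv => ?_, fun hnm B hB => ?_⟩
  · rw [hJ]
    refine Finset.sum_eq_zero fun l _ => ?_
    have := hΓ l v
    rw [hv, map_zero, norm_zero, abs_nonpos_iff] at this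
    simp [this]
  · subst hnm
    let γ : Fin JY.N → Fin n → ℝ := fun l j => Γ l (B *ᵥ Pi.single j 1)
    have hlin : ∀ l z, Γ l (B *ᵥ z) = γ l ⬝ᵥ z := by
      intro l z
      have hz : z = ∑ j, z j • (Pi.single j 1 : Fin n → ℝ) := by
        ext j; simp [Finset.sum_apply, Pi.single_apply]
      conv_lhs => rw [hz, mulVec_sum, map_sum]
      simp [γ, dotProduct, mulVec_smul, mul_comm]
    have hγ : ∀ l, γ l ⬝ᵥ γ l ≤ n := by
      intro l
      refine JX.bound _ fun x => ?_
      rw [← hlin]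
      refine (hΓ l _).trans (le_of_eq ?_)
      rw [mulVec_mulVec, hB, one_mulVec, ContinuousLinearEquiv.symm_apply_apply]
    have hent : ∀ i j, (jac (fun q => calib JY k (R q)) p * B) i j
        = ∑ l, JY.w l * γ l j * JY.v l i := by
      intro i j
      have h0 : (jac (fun q => calib JY k (R q)) p * B) *ᵥ Pi.single j 1
          = ∑ l, (JY.w l * γ l j) • JY.v l := by rw [← mulVec_mulVec, hJ]
      have := congrFun h0 i
      simpa [Finset.sum_apply] using this
    have hcol : ∀ j, ∑ i, (jac (fun q => calib JY k (R q)) p * B) i j ^ 2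
        ≤ ∑ l, JY.w l * γ l j ^ 2 := by
      intro j
      set q : Fin n → ℝ := fun i => (jac (fun q => calib JY k (R q)) p * B) i j with hq
      have h1 : ∀ i, q i = ∑ l, JY.w l * γ l j * JY.v l i := fun i => hent i j
      have h2 : ∑ l, JY.w l * γ l j * (JY.v l ⬝ᵥ q) = q ⬝ᵥ q := by
        simp only [dotProduct, Finset.mul_sum]
        rw [Finset.sum_comm]
        refine Finset.sum_congr rfl fun i _ => ?_
        conv_rhs => arg 1; rw [h1]
        rw [Finset.sum_mul]
        exact Finset.sum_congr rfl fun l _ => by ring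
      have h3 : ∑ l, JY.w l * (JY.v l ⬝ᵥ q) ^ 2 = q ⬝ᵥ q := by
        have := congrArg (fun z => q ⬝ᵥ z) (calib_recover JY q)
        simp only [dotProduct_sum, dotProduct_smul, smul_eq_mul] at this
        rw [← this]
        exact Finset.sum_congr rfl fun l _ => by rw [dotProduct_comm q (JY.v l)]; ring
      have h4 : 0 ≤ ∑ l, JY.w l * (γ l j - JY.v l ⬝ᵥ q) ^ 2 :=
        Finset.sum_nonneg fun l _ => mul_nonneg (JY.w_nonneg l) (sq_nonneg _)
      have h5 : ∑ l, JY.w l * (γ l j - JY.v l ⬝ᵥ q) ^ 2 = ∑ l, JY.w l * γ l j ^ 2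
          - 2 * ∑ l, JY.w l * γ l j * (JY.v l ⬝ᵥ q) + ∑ l, JY.w l * (JY.v l ⬝ᵥ q) ^ 2 := by
        rw [Finset.mul_sum, ← Finset.sum_sub_distrib, ← Finset.sum_add_distrib]
        exact Finset.sum_congr rfl fun l _ => by ring
      have h6 : q ⬝ᵥ q = ∑ i, (jac (fun q => calib JY k (R q)) p * B) i j ^ 2 := by
        simp [dotProduct, hq, pow_two]
      linarith
    calc ∑ i, ∑ j, (jac (fun q => calib JY k (R q)) p * B) i j ^ 2
        = ∑ j, ∑ i, (jac (fun q => calib JY k (R q)) p * B) i j ^ 2 := Finset.sum_comm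
      _ ≤ ∑ j, ∑ l, JY.w l * γ l j ^ 2 := Finset.sum_le_sum fun j _ => hcol j
      _ = ∑ l, JY.w l * (γ l ⬝ᵥ γ l) := by
          rw [Finset.sum_comm]; simp [dotProduct, Finset.mul_sum, pow_two]
      _ ≤ ∑ l, JY.w l * (n : ℝ) :=
          Finset.sum_le_sum fun l _ => mul_le_mul_of_nonneg_left (hγ l) (JY.w_nonneg l)
      _ = n := by rw [← Finset.sum_mul, JY.w_sum, one_mul]

end Vale.Agent.P084
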