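import Vale.Agent.P084.Calibration

/-!
Rigidity: the filling map is a Euclidean isometry in John coordinates.
-/

open Set MeasureTheory Matrix Module
open scoped NNReal Topology ENNReal

namespace Vale.Agent.P084

variable {X Y : Type*} [NormedAddCommGroup X] [NormedSpace ℝ X]
  [NormedAddCommGroup Y] [NormedSpace ℝ Y] {n m : ℕ}

lemma exists_mem_segment_frontier {E : Type*} [NormedAddCommGroup E] [NormedSpace ℝ E]
    {U : Set E} (hU : IsOpen U) {p q : E} (hp : p ∈ U) (hq : q ∉ U) :
    ∃ z ∈ segment ℝ p q, z ∈ frontier U := by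
  by_contra h
  push Not at h
  have hcov : segment ℝ p q ⊆ U ∪ (closure U)ᶜ := by
    intro z hz
    by_cases hzU : z ∈ U
    · exact Or.inl hzU
    · refine Or.inr fun hcl => h z hz ?_
      rw [hU.frontier_eq]; exact ⟨hcl, hzU⟩
  have hq' : q ∈ (closure U)ᶜ := by
    rcases hcov (right_mem_segment ℝ p q) with h1 | h1
    · exact absurd h1 hq
    · exact h1
  obtain ⟨z, _, hz1, hz2⟩ := (convex_segment p q).isPreconnected U (closure U)ᶜ hU
    isClosed_closure.isOpen_compl hcov ⟨p, left_mem_segment ℝ p q, hp⟩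
    ⟨q, right_mem_segment ℝ p q, hq'⟩
  exact hz2 (subset_closure hz1)

/-- Gluing a Lipschitz map with the identity outside an open set. -/
lemma lipschitz_glue {E : Type*} [NormedAddCommGroup E] [NormedSpace ℝ E]
    {U : Set E} (hU : IsOpen U) {G : E → E} {C : ℝ≥0} (hG : LipschitzWith C G)
    (hbd : ∀ z ∈ frontier U, G z = z) [DecidablePred (· ∈ U)] :
    LipschitzWith (C + 1) (fun x => if x ∈ U then G x else x) := by
  refine LipschitzWith.of_dist_le_mul fun p q => ?_
  have hmix : ∀ p q : E, p ∈ U → q ∉ U → dist (G p) q ≤ ((C + 1 : ℝ≥0) : ℝ) * dist p q := by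
    intro p q hp hq
    obtain ⟨z, hz, hzf⟩ := exists_mem_segment_frontier hU hp hq
    have h1 : dist (G p) q ≤ dist (G p) (G z) + dist z q := by
      conv_rhs => arg 2; rw [← hbd z hzf]
      exact dist_triangle _ _ _
    have h2 := hG.dist_le_mul p z
    have h3 := dist_add_dist_of_mem_segment hz
    push_cast
    nlinarith [dist_nonneg (x := p) (y := z), dist_nonneg (x := z) (y := q), C.2]
  push_cast at hmix ⊢
  by_cases hp : p ∈ U <;> by_cases hq : q ∈ U <;> simp only [hp, hq, if_true, if_false]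
  · nlinarith [hG.dist_le_mul p q, dist_nonneg (x := p) (y := q)]
  · exact hmix p q hp hq
  · rw [dist_comm p, dist_comm p q]; exact hmix q p hq hp
  · nlinarith [dist_nonneg (x := p) (y := q), C.2]

/-- A Lipschitz map with orthogonal derivative almost everywhere on a convex open set does not
increase Euclidean distances on its closure. -/
lemma contraction_of_jac_orth {R : (Fin m → ℝ) → (Fin n → ℝ)} {C : ℝ≥0} (hR : LipschitzWith C R)
    {U : Set (Fin m → ℝ)} (hU : IsOpen U) (hcv : Convex ℝ U)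
    (hae : ∀ᵐ p ∂(volume : Measure (Fin m → ℝ)), p ∈ U →
      DifferentiableAt ℝ R p ∧ (jac R p)ᵀ * jac R p = 1) :
    ∀ p ∈ closure U, ∀ q ∈ closure U,
      (R q - R p) ⬝ᵥ (R q - R p) ≤ (q - p) ⬝ᵥ (q - p) := by
  obtain ⟨N, hsub, hNmeas, hN⟩ := exists_measurable_superset_of_null (ae_iff.1 hae)
  have hopen : ∀ p ∈ U, ∀ q ∈ U, (R q - R p) ⬝ᵥ (R q - R p) ≤ (q - p) ⬝ᵥ (q - p) := by
    intro p₀ hp₀ q₀ hq₀
    set u := q₀ - p₀ with hu
    -- almost every segment in direction `u` avoids the bad set almost everywhere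
    have hline : ∀ᵐ p ∂(volume : Measure (Fin m → ℝ)), ∀ᵐ s ∂(volume : Measure ℝ),
        p + s • u ∉ N := by
      have hmeas : MeasurableSet {x : (Fin m → ℝ) × ℝ | x.1 + x.2 • u ∉ N} := by
        have : Measurable fun x : (Fin m → ℝ) × ℝ => x.1 + x.2 • u := by fun_prop
        exact (this hNmeas).compl
      refine (MeasureTheory.Measure.ae_ae_comm hmeas).2
        (Filter.Eventually.of_forall fun s => ?_)
      rw [ae_iff]
      simp only [not_not]
      rw [show {p : Fin m → ℝ | p + s • u ∈ N} = (fun p => p + s • u) ⁻¹' N from rfl,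
        measure_preimage_add_right]
      exact hN
    have hgood : ∀ᵐ p ∂(volume : Measure (Fin m → ℝ)), p ∈ U → p + u ∈ U →
        (R (p + u) - R p) ⬝ᵥ (R (p + u) - R p) ≤ u ⬝ᵥ u := by
      filter_upwards [hline] with p hp hpU hpuU
      set c := R (p + u) - R p with hc
      let g : ℝ → ℝ := fun s => c ⬝ᵥ R (p + s • u)
      have hglip : ∃ L, LipschitzWith L g := by
        refine ⟨(∑ i, |c i| * ((C : ℝ) * ‖u‖)).toNNReal,
          LipschitzWith.of_dist_le_mul fun a b => ?_⟩
        rw [Real.coe_toNNReal _ (by positivity), Real.dist_eq, Real.dist_eq, ← dotProduct_sub,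
          Finset.sum_mul]
        refine (Finset.abs_sum_le_sum_abs _ _).trans (Finset.sum_le_sum fun i _ => ?_)
        rw [abs_mul, mul_assoc]
        refine mul_le_mul_of_nonneg_left ?_ (abs_nonneg _)
        have h1 := norm_le_pi_norm (R (p + a • u) - R (p + b • u)) i
        rw [Real.norm_eq_abs] at h1
        refine h1.trans ?_
        have h2 := hR.dist_le_mul (p + a • u) (p + b • u)
        rw [dist_eq_norm, dist_eq_norm, add_sub_add_left_eq_sub, ← sub_smul, norm_smul,
          Real.norm_eq_abs] at h2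
        linarith
      obtain ⟨L, hgL⟩ := hglip
      have hac : AbsolutelyContinuousOnInterval g 0 1 :=
        (hgL.lipschitzOnWith (s := uIcc 0 1)).absolutelyContinuousOnInterval
      have hderiv : ∀ᵐ s ∂(volume.restrict (Icc (0:ℝ) 1)),
          deriv g s ≤ (c ⬝ᵥ c + u ⬝ᵥ u) / 2 := by
        refine (ae_restrict_iff' measurableSet_Icc).2 ?_
        filter_upwards [hp] with s hs hs01
        have hin : p + s • u ∈ U := hcv.add_smul_mem hpU hpuU hs01
        obtain ⟨hd, horth⟩ : DifferentiableAt ℝ R (p + s • u) ∧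
            (jac R (p + s • u))ᵀ * jac R (p + s • u) = 1 := by
          by_contra hcon
          exact hs (hsub (by simp only [Set.mem_ofPred_eq]; exact fun h => hcon (h hin)))
        set z := jac R (p + s • u) *ᵥ u with hz
        have hzz : z ⬝ᵥ z = u ⬝ᵥ u := by
          rw [hz, dotProduct_mulVec, ← mulVec_transpose, mulVec_mulVec, horth, one_mulVec]
        have hline' : HasDerivAt (fun r : ℝ => p + r • u) u s := by
          simpa using ((hasDerivAt_id s).smul_const u).const_add p
        have hRd : HasDerivAt (fun r : ℝ => R (p + r • u)) z s := by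
          rw [hz, jac_mulVec]
          exact hd.hasFDerivAt.comp_hasDerivAt s hline'
        have hgd : HasDerivAt g (c ⬝ᵥ z) s :=
          HasDerivAt.fun_sum fun i _ => (hasDerivAt_pi.1 hRd i).const_mul (c i)
        rw [hgd.deriv]
        have h0 : 0 ≤ (c - z) ⬝ᵥ (c - z) := Finset.sum_nonneg fun i _ => mul_self_nonneg _
        simp only [sub_dotProduct, dotProduct_sub] at h0
        rw [dotProduct_comm z c] at h0
        linarith
      have hint := hac.integral_deriv_eq_sub
      have hmono := intervalIntegral.integral_mono_ae_restrict (zero_le_one' ℝ)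
        hac.intervalIntegrable_deriv intervalIntegrable_const hderiv
      rw [hint, intervalIntegral.integral_const] at hmono
      simp only [g, one_smul, zero_smul, add_zero, smul_eq_mul, sub_zero, one_mul,
        ← dotProduct_sub, ← hc] at hmono
      linarith
    -- continuity
    by_contra hcon
    rw [not_le] at hcon
    let W := {p : Fin m → ℝ | p ∈ U ∧ p + u ∈ U ∧
      u ⬝ᵥ u < (R (p + u) - R p) ⬝ᵥ (R (p + u) - R p)}
    have hWopen : IsOpen W := by
      have hRc := hR.continuous
      have hq : Continuous fun p => (R (p + u) - R p) ⬝ᵥ (R (p + u) - R p) := by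
        simp only [dotProduct]; fun_prop
      exact hU.inter ((hU.preimage (by fun_prop : Continuous fun p => p + u)).inter
        (isOpen_lt (continuous_const : Continuous fun _ : Fin m → ℝ => u ⬝ᵥ u) hq))
    have hpW : p₀ ∈ W := by
      refine ⟨hp₀, ?_, ?_⟩ <;> rw [hu, add_sub_cancel]
      · exact hq₀
      · exact hcon
    have hWnull : volume W = 0 := by
      refine measure_mono_null ?_ (ae_iff.1 hgood)
      intro p hp h
      exact absurd (h hp.1 hp.2.1) (not_le.2 hp.2.2)
    exact (hWopen.measure_pos volume ⟨p₀, hpW⟩).ne' hWnull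
  have hclosed : IsClosed {x : (Fin m → ℝ) × (Fin m → ℝ) |
      (R x.2 - R x.1) ⬝ᵥ (R x.2 - R x.1) ≤ (x.2 - x.1) ⬝ᵥ (x.2 - x.1)} := by
    have hRc := hR.continuous
    refine isClosed_le ?_ ?_ <;> (simp only [dotProduct]; fun_prop)
  intro p hp q hq
  have hsub' : closure (U ×ˢ U) ⊆ {x : (Fin m → ℝ) × (Fin m → ℝ) |
      (R x.2 - R x.1) ⬝ᵥ (R x.2 - R x.1) ≤ (x.2 - x.1) ⬝ᵥ (x.2 - x.1)} :=
    closure_minimal (fun x hx => hopen x.1 hx.1 x.2 hx.2) hclosed
  rw [closure_prod_eq] at hsub'
  exact hsub' (Set.mk_mem_prod hp hq)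

/-- The main estimate. -/
theorem boundary_contraction (JX : JohnData X n) (JY : JohnData Y m) {U : Set Y} (hU : IsOpen U)
    (hb : Bornology.IsBounded U) (hcv : Convex ℝ U) (hne : U.Nonempty) {S : Set X}
    {φ : X → Y} {ψ : Y → X}
    (hφ : ∀ x ∈ S, ∀ x' ∈ S, dist (φ x) (φ x') = dist x x')
    (hψ : ∀ y ∈ frontier U, ∀ y' ∈ frontier U, dist (ψ y) (ψ y') = dist y y')
    (hψS : ∀ y ∈ frontier U, ψ y ∈ S) (hinv : ∀ y ∈ frontier U, φ (ψ y) = y) :
    m ≤ n ∧ (n = m → ∀ y ∈ frontier U, ∀ y' ∈ frontier U,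
      (JX.e (ψ y') - JX.e (ψ y)) ⬝ᵥ (JX.e (ψ y') - JX.e (ψ y))
        ≤ (JY.e y' - JY.e y) ⬝ᵥ (JY.e y' - JY.e y)) := by
  classical
  obtain ⟨h, hh, hhbd⟩ := exists_calib JX JY hψ
  obtain ⟨k, hk, hkbd⟩ := exists_calib JY JX hφ
  obtain ⟨CR, hR⟩ := exists_lipschitz_calib JX JY hh
  obtain ⟨CR', hR'⟩ := exists_lipschitz_calib JY JX hk
  set R := calib JX h with hRdef
  let G : (Fin m → ℝ) → (Fin m → ℝ) := fun q => calib JY k (R q)
  have hG : LipschitzWith (CR' * CR) G := hR'.comp hR
  let U' : Set (Fin m → ℝ) := JY.e.toHomeomorph '' U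
  have hU' : IsOpen U' := JY.e.toHomeomorph.isOpen_image.2 hU
  have hcv' : Convex ℝ U' := hcv.linear_image (JY.e : Y →L[ℝ] (Fin m → ℝ)).toLinearMap
  have hb' : Bornology.IsBounded U' :=
    (JY.e : Y →L[ℝ] (Fin m → ℝ)).lipschitz.isBounded_image hb
  have hfr : frontier U' = JY.e.toHomeomorph '' frontier U :=
    (JY.e.toHomeomorph.image_frontier U).symm
  have hGbd : ∀ z ∈ frontier U', G z = z := by
    rw [hfr]
    rintro _ ⟨y, hy, rfl⟩
    change calib JY k (calib JX h (JY.e y)) = JY.e y
    rw [← hRdef, hhbd y hy, hkbd _ (hψS y hy), hinv y hy]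
  let F : (Fin m → ℝ) → (Fin m → ℝ) := fun x => if x ∈ U' then G x else x
  have hF : LipschitzWith (CR' * CR + 1) F := lipschitz_glue hU' hG hGbd
  obtain ⟨hint, hval⟩ := integral_det_jac hF hU' hb' (fun x hx => if_neg hx)
  have hFG : ∀ p ∈ U', jac F p = jac G p := by
    intro p hp
    have : F =ᶠ[𝓝 p] G :=
      Filter.eventuallyEq_of_mem (hU'.mem_nhds hp) fun x hx => if_pos hx
    simp only [jac, this.fderiv_eq]
  have hdiff : ∀ᵐ p ∂(volume : Measure (Fin m → ℝ)),
      (∀ i, DifferentiableAt ℝ (h i) p) ∧ DifferentiableAt ℝ R p ∧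
        ∀ l, DifferentiableAt ℝ (fun q => k l (R q)) p := by
    refine (ae_all_iff.2 fun i => ?_).and (hR.ae_differentiableAt.and (ae_all_iff.2 fun l => ?_))
    · obtain ⟨C, hC⟩ := exists_lipschitz_h JX JY hh i
      exact hC.ae_differentiableAt
    · obtain ⟨C, hC⟩ := exists_lipschitz_h JY JX hk l
      exact (hC.comp hR).ae_differentiableAt
  have hvol : 0 < volume.real U' :=
    ENNReal.toReal_pos (hU'.measure_pos volume (hne.image _)).ne' hb'.measure_lt_top.ne
  constructor
  · by_contra hmn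
    rw [not_le] at hmn
    have hzero : ∀ᵐ p ∂(volume.restrict U'), (jac F p).det = (0 : ℝ) := by
      filter_upwards [ae_restrict_mem hU'.measurableSet, ae_restrict_of_ae hdiff]
        with p hpU hpd
      rw [hFG p hpU]
      obtain ⟨v, hv, hv0⟩ := exists_mulVec_eq_zero_of_lt (jac R p) hmn
      exact exists_mulVec_eq_zero_iff.1
        ⟨v, hv, (jac_comp_bound JX JY hk hpd.2.1 hpd.2.2).1 v hv0⟩
    rw [integral_congr_ae hzero, integral_zero] at hval
    linarith
  · intro hnm
    subst hnm
    have hpt : ∀ᵐ p ∂(volume.restrict U'), (jac F p).det ≤ 1 ∧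
        ((jac F p).det = 1 → (jac R p)ᵀ * jac R p = 1) := by
      filter_upwards [ae_restrict_mem hU'.measurableSet, ae_restrict_of_ae hdiff]
        with p hpU hpd
      rw [hFG p hpU]
      obtain ⟨hker, hfac⟩ := jac_comp_bound JX JY hk hpd.2.1 hpd.2.2
      obtain ⟨hJ1, hJeq⟩ := gram_det_le (jac R p) (jac_calib_bound JX JY hh hpd.1)
      by_cases h0 : (jac R p).det = 0
      · obtain ⟨v, hv, hv0⟩ := exists_mulVec_eq_zero_iff.2 h0
        have : (jac G p).det = 0 := exists_mulVec_eq_zero_iff.1 ⟨v, hv, hker v hv0⟩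
        exact ⟨by rw [this]; norm_num, fun h1 => by rw [this] at h1; norm_num at h1⟩
      · have hu : IsUnit (jac R p).det := isUnit_iff_ne_zero.2 h0
        obtain ⟨hA1, -⟩ := gram_det_le _ (hfac rfl (jac R p)⁻¹ (mul_nonsing_inv _ hu))
        have heq : (jac G p).det = (jac G p * (jac R p)⁻¹).det * (jac R p).det := by
          rw [← det_mul, Matrix.mul_assoc, nonsing_inv_mul _ hu, Matrix.mul_one]
        have hle : (jac G p).det ≤ |(jac R p).det| := by
          rw [heq]
          refine (le_abs_self _).trans ?_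
          rw [abs_mul]
          exact mul_le_of_le_one_left (abs_nonneg _) hA1
        exact ⟨hle.trans hJ1, fun h1 => hJeq (le_antisymm hJ1 (h1 ▸ hle))⟩
    have hfin : IsFiniteMeasure (volume.restrict U') :=
      isFiniteMeasure_restrict.2 hb'.measure_lt_top.ne
    have hone : ∀ᵐ p ∂(volume.restrict U'), (jac F p).det = 1 := by
      have hnn : 0 ≤ᵐ[volume.restrict U'] fun p => 1 - (jac F p).det := by
        filter_upwards [hpt] with p hp
        simp only [Pi.zero_apply, sub_nonneg]
        exact hp.1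
      have hz : ∫ p in U', (1 - (jac F p).det) = 0 := by
        rw [integral_sub (integrable_const 1) hint, hval]
        simp [Measure.real]
      filter_upwards [(integral_eq_zero_iff_of_nonneg_ae hnn
        ((integrable_const 1).sub hint)).1 hz] with p hp
      simp only [Pi.zero_apply] at hp
      linarith
    have horth : ∀ᵐ p ∂(volume : Measure (Fin n → ℝ)), p ∈ U' →
        DifferentiableAt ℝ R p ∧ (jac R p)ᵀ * jac R p = 1 := by
      refine (ae_restrict_iff' hU'.measurableSet).1 ?_
      filter_upwards [hpt, hone, ae_restrict_of_ae hdiff] with p hp h1 hd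
      exact ⟨hd.2.1, hp.2 h1⟩
    intro y hy y' hy'
    have hmem : ∀ z ∈ frontier U, JY.e z ∈ closure U' := fun z hz =>
      frontier_subset_closure (hfr.symm ▸ mem_image_of_mem _ hz)
    have := contraction_of_jac_orth hR hU' hcv' horth _ (hmem y hy) _ (hmem y' hy')
    rwa [hhbd y hy, hhbd y' hy'] at this

end Vale.Agent.P084
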