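import Mathlib

/-!
John decomposition of the identity for an arbitrary finite-dimensional normed space, obtained by
maximising the determinant of second moment matrices of functionals of norm at most one.
-/

open Set Module Matrix
open scoped Topology MatrixOrder

namespace Vale.Agent.P084

/-- Coordinates, weights and functionals realising a John decomposition of the identity. -/
structure JohnData (X : Type*) [NormedAddCommGroup X] [NormedSpace ℝ X] (n : ℕ) where
  N : ℕ
  e : X ≃L[ℝ] (Fin n → ℝ)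
  w : Fin N → ℝ
  v : Fin N → Fin n → ℝ
  w_nonneg : ∀ k, 0 ≤ w k
  w_sum : ∑ k, w k = 1
  v_le : ∀ k x, |v k ⬝ᵥ e x| ≤ ‖x‖
  iso : ∀ i j, ∑ k, w k * v k i * v k j = if i = j then 1 else 0
  bound : ∀ g : Fin n → ℝ, (∀ x, |g ⬝ᵥ e x| ≤ ‖x‖) → g ⬝ᵥ g ≤ n

variable {n : ℕ}

/-- Every point of the hull is a combination of exactly `n * n + 1` points. -/
lemma hull_rep {B : Set (Fin n → ℝ)} (h0 : (0 : Fin n → ℝ) ∈ B) {x : Matrix (Fin n) (Fin n) ℝ}
    (hx : x ∈ convexHull ℝ ((fun g => vecMulVec g g) '' B)) :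
    ∃ p ∈ stdSimplex ℝ (Fin (n * n + 1)) ×ˢ univ.pi (fun _ : Fin (n * n + 1) => B),
      ∑ k, p.1 k • vecMulVec (p.2 k) (p.2 k) = x := by
  obtain ⟨ι, _, z, w, hz, hai, hw, hsum, hwz⟩ := eq_pos_convex_span_of_mem_convexHull hx
  have hcard : Fintype.card ι ≤ n * n + 1 := by
    refine hai.card_le_finrank_succ.trans ?_
    refine Nat.add_le_add_right ((Submodule.finrank_le _).trans ?_) 1
    simp [Module.finrank_matrix]
  choose g hgB hgz using fun i => hz ⟨i, rfl⟩
  obtain ⟨e⟩ : Nonempty (ι ↪ Fin (n * n + 1)) :=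
    Function.Embedding.nonempty_of_card_le (by simpa using hcard)
  refine ⟨(Function.extend e w 0, Function.extend e g 0), ⟨⟨fun k => ?_, ?_⟩, fun k _ => ?_⟩, ?_⟩
  · by_cases hk : ∃ i, e i = k
    · obtain ⟨i, rfl⟩ := hk
      simpa [e.injective.extend_apply] using (hw i).le
    · simp [Function.extend_apply' _ _ _ hk]
  · rw [← hsum]
    rw [← Fintype.sum_of_injective e e.injective w (Function.extend e w 0)]
    · intro k hk; simp [Function.extend_apply' _ _ _ (by simpa using hk)]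
    · intro i; simp [e.injective.extend_apply]
  · by_cases hk : ∃ i, e i = k
    · obtain ⟨i, rfl⟩ := hk
      simpa [e.injective.extend_apply] using hgB i
    · simpa [Function.extend_apply' _ _ _ hk] using h0
  · rw [← hwz]
    symm
    refine Fintype.sum_of_injective e e.injective _ _ ?_ ?_
    · intro k hk; simp [Function.extend_apply' _ _ _ (by simpa using hk)]
    · intro i; simp [e.injective.extend_apply, hgz i]

lemma det_perturb (g : Fin n → ℝ) {s : ℝ} (hs : 0 < s) :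
    ((1 - s / (1 + s)) • (1 : Matrix (Fin n) (Fin n) ℝ) + (s / (1 + s)) • vecMulVec g g).det
      = (1 + s) ⁻¹ ^ n * (1 + s * (g ⬝ᵥ g)) := by
  have h1 : (1 - s / (1 + s)) • (1 : Matrix (Fin n) (Fin n) ℝ) + (s / (1 + s)) • vecMulVec g g
      = (1 + s)⁻¹ • (1 + replicateCol Unit (s • g) * replicateRow Unit g) := by
    ext i j
    simp [vecMulVec_apply, Matrix.mul_apply, Matrix.one_apply]
    split_ifs <;> field_simp <;> ring
  rw [h1, det_smul, det_one_add_replicateCol_mul_replicateRow, dotProduct_smul]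
  simp

lemma le_of_perturb {a : ℝ} (h : ∀ s : ℝ, 0 < s → 1 + s * a ≤ (1 + s) ^ n) : a ≤ n := by
  by_contra hc
  rw [not_le] at hc
  have hlim : Filter.Tendsto (fun s : ℝ => ((1 + s) ^ n - 1) / s) (𝓝[>] 0) (𝓝 (n : ℝ)) := by
    have hd : HasDerivAt (fun s : ℝ => (1 + s) ^ n) (n : ℝ) 0 := by
      simpa using ((hasDerivAt_id (0 : ℝ)).const_add 1).fun_pow n
    have := hd.tendsto_slope.mono_left
      (nhdsWithin_mono _ (fun x (hx : (0:ℝ) < x) => ne_of_gt hx))
    refine this.congr' (Filter.Eventually.of_forall fun s => ?_)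
    simp [slope_def_field]
  obtain ⟨s, hs1, hs2⟩ := ((hlim.eventually_lt_const hc).and self_mem_nhdsWithin).exists
  rw [div_lt_iff₀ hs2] at hs1
  nlinarith [h s hs2]

theorem exists_johnData (X : Type*) [NormedAddCommGroup X] [NormedSpace ℝ X]
    [FiniteDimensional ℝ X] : Nonempty (JohnData X (finrank ℝ X)) := by
  let n := finrank ℝ X
  let e₀ : X ≃L[ℝ] (Fin n → ℝ) := ContinuousLinearEquiv.ofFinrankEq (by simp [n])
  let B : Set (Fin n → ℝ) := {g | ∀ x, |g ⬝ᵥ e₀ x| ≤ ‖x‖}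
  have h0 : (0 : Fin n → ℝ) ∈ B := by intro x; simp
  have hBclosed : IsClosed B := by
    simp only [B, Set.ofPred_forall]
    refine isClosed_iInter fun x => isClosed_le ?_ continuous_const
    simp only [dotProduct]; fun_prop
  have hBc : IsCompact B := by
    refine IsCompact.of_isClosed_subset
      (isCompact_univ_pi fun i => isCompact_Icc
        (a := -‖e₀.symm (Pi.single i 1)‖) (b := ‖e₀.symm (Pi.single i 1)‖)) hBclosed ?_
    intro g hg i _
    have := hg (e₀.symm (Pi.single i 1))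
    simp only [ContinuousLinearEquiv.apply_symm_apply, dotProduct_single, mul_one] at this
    exact abs_le.1 this
  let D := stdSimplex ℝ (Fin (n * n + 1)) ×ˢ univ.pi (fun _ : Fin (n * n + 1) => B)
  let Φ : (Fin (n * n + 1) → ℝ) × (Fin (n * n + 1) → Fin n → ℝ) → Matrix (Fin n) (Fin n) ℝ :=
    fun p => ∑ k, p.1 k • vecMulVec (p.2 k) (p.2 k)
  let C := convexHull ℝ ((fun g : Fin n → ℝ => vecMulVec g g) '' B)
  have hΦC : ∀ p ∈ D, Φ p ∈ C := fun p hp =>
    (convex_convexHull ℝ _).sum_mem (fun k _ => hp.1.1 k) hp.1.2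
      (fun k _ => subset_convexHull ℝ _ ⟨p.2 k, hp.2 k (mem_univ k), rfl⟩)
  have hΦ : Continuous Φ := by
    refine continuous_finset_sum _ fun k _ => ?_
    apply continuous_matrix
    intro i j
    simp only [Matrix.smul_apply, vecMulVec_apply, smul_eq_mul]
    fun_prop
  have hDc : IsCompact D := (isCompact_stdSimplex _ _).prod (isCompact_univ_pi fun _ => hBc)
  -- a point of positive determinant
  let c : ℝ := (‖(e₀ : X →L[ℝ] (Fin n → ℝ))‖ + 1)⁻¹
  have hc : 0 < c := by positivity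
  have hcB : ∀ i, Pi.single i c ∈ B := by
    intro i x
    rw [single_dotProduct, abs_mul, abs_of_pos hc, inv_mul_le_iff₀ (by positivity)]
    have h1 : |e₀ x i| ≤ ‖e₀ x‖ := norm_le_pi_norm (e₀ x) i
    have h2 : ‖e₀ x‖ ≤ ‖(e₀ : X →L[ℝ] (Fin n → ℝ))‖ * ‖x‖ :=
      ContinuousLinearMap.le_opNorm (e₀ : X →L[ℝ] (Fin n → ℝ)) x
    nlinarith [norm_nonneg x]
  have hM₀ : (((n : ℝ) + 1)⁻¹ * (c * c)) • (1 : Matrix (Fin n) (Fin n) ℝ) ∈ C := by
    have := (convex_convexHull ℝ ((fun g : Fin n → ℝ => vecMulVec g g) '' B)).sum_mem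
      (t := (Finset.univ : Finset (Option (Fin n)))) (w := fun _ => ((n : ℝ) + 1)⁻¹)
      (z := fun o => o.elim (vecMulVec (0 : Fin n → ℝ) 0)
        (fun i => vecMulVec (Pi.single i c) (Pi.single i c)))
      (fun _ _ => by positivity) (by simp; field_simp) (fun o _ => by
        cases o
        · exact subset_convexHull ℝ _ ⟨0, h0, rfl⟩
        · exact subset_convexHull ℝ _ ⟨_, hcB _, rfl⟩)
    convert this using 1
    ext i j
    simp [Matrix.sum_apply, Fintype.sum_option, vecMulVec_apply, Pi.single_apply, Matrix.one_apply]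
  obtain ⟨p₀, hp₀, hp₀eq⟩ := hull_rep h0 hM₀
  obtain ⟨p, hp, hmax⟩ := hDc.exists_isMaxOn ⟨p₀, hp₀⟩ (hΦ.matrix_det).continuousOn
  set M := Φ p with hM
  have hMdet : 0 < M.det := by
    refine lt_of_lt_of_le ?_ (hmax hp₀)
    change 0 < (Φ p₀).det
    simp only [Φ, hp₀eq, det_smul, det_one, mul_one]
    positivity
  have hpsd : M.PosSemidef := by
    refine posSemidef_sum _ fun k _ => ?_
    refine PosSemidef.smul ?_ (hp.1.1 k)
    simpa using posSemidef_vecMulVec_self_star (p.2 k)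
  let S := CFC.sqrt M
  have hSS : S * S = M := CFC.sqrt_mul_sqrt_self M (Matrix.nonneg_iff_posSemidef.2 hpsd)
  have hSsymm : Sᵀ = S := by
    have := (Matrix.nonneg_iff_posSemidef.1 (CFC.sqrt_nonneg M)).1
    simpa [Matrix.IsHermitian] using this
  have hSdet : IsUnit S.det := by
    rw [isUnit_iff_ne_zero]
    intro h
    rw [← hSS, det_mul, h] at hMdet
    simp at hMdet
  let eS : (Fin n → ℝ) ≃L[ℝ] (Fin n → ℝ) :=
    ((Matrix.toLinearEquiv' S (invertibleOfIsUnitDet S hSdet))).toContinuousLinearEquiv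
  have heS : ∀ x, eS x = S *ᵥ x := fun x => rfl
  refine ⟨⟨n * n + 1, e₀.trans eS, p.1, fun k => S⁻¹ *ᵥ p.2 k, hp.1.1, hp.1.2, ?_, ?_, ?_⟩⟩
  · intro k x
    have : (S⁻¹ *ᵥ p.2 k) ⬝ᵥ (S *ᵥ e₀ x) = p.2 k ⬝ᵥ e₀ x := by
      rw [dotProduct_mulVec, ← mulVec_transpose, hSsymm, mulVec_mulVec,
        Matrix.mul_nonsing_inv S hSdet, one_mulVec]
    simp only [ContinuousLinearEquiv.trans_apply, heS, this]
    exact hp.2 k (mem_univ k) x
  · intro i j
    have hinvT : (S⁻¹)ᵀ = S⁻¹ := by rw [transpose_nonsing_inv, hSsymm]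
    have h1 : S⁻¹ * M * S⁻¹ = 1 := by
      rw [← hSS, ← Matrix.mul_assoc, Matrix.nonsing_inv_mul S hSdet, Matrix.one_mul,
        Matrix.mul_nonsing_inv S hSdet]
    have h2 : S⁻¹ * M * S⁻¹ = ∑ k, p.1 k • vecMulVec (S⁻¹ *ᵥ p.2 k) (S⁻¹ *ᵥ p.2 k) := by
      simp only [hM, Φ, Matrix.mul_sum, Matrix.sum_mul, Matrix.mul_smul, Matrix.smul_mul,
        Matrix.mul_vecMulVec, Matrix.vecMulVec_mul, ← mulVec_transpose, hinvT]
    have := congrFun (congrFun (h1.symm.trans h2) i) j
    simp only [Matrix.sum_apply, Matrix.smul_apply, vecMulVec_apply, smul_eq_mul,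
      Matrix.one_apply, ← mul_assoc] at this
    exact this.symm
  · intro g hg
    refine le_of_perturb fun s hs => ?_
    have hg' : S *ᵥ g ∈ B := by
      intro x
      have : (S *ᵥ g) ⬝ᵥ e₀ x = g ⬝ᵥ (e₀.trans eS) x := by
        rw [ContinuousLinearEquiv.trans_apply, heS, dotProduct_mulVec, ← mulVec_transpose, hSsymm]
      rw [this]
      exact hg x
    have hmem : (1 - s / (1 + s)) • M + (s / (1 + s)) • vecMulVec (S *ᵥ g) (S *ᵥ g) ∈ C := by
      have hs1 : s / (1 + s) ≤ 1 := by rw [div_le_one (by linarith)]; linarith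
      exact convex_convexHull ℝ _ (hΦC p hp) (subset_convexHull ℝ _ ⟨_, hg', rfl⟩)
        (by linarith) (by positivity) (by ring)
    obtain ⟨q, hq, hqeq⟩ := hull_rep h0 hmem
    have hle : (Φ q).det ≤ M.det := hmax hq
    have hfac : Φ q
        = S * ((1 - s / (1 + s)) • 1 + (s / (1 + s)) • vecMulVec g g) * S := by
      simp only [Φ, hqeq]
      simp only [Matrix.mul_add, Matrix.add_mul, Matrix.mul_smul, Matrix.smul_mul, Matrix.mul_one,
        hSS, Matrix.mul_vecMulVec, Matrix.vecMulVec_mul, ← mulVec_transpose, hSsymm]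
    rw [hfac, ← hSS, det_mul, det_mul, det_mul, det_perturb g hs] at hle
    have hsq : 0 < S.det * S.det := mul_self_pos.2 hSdet.ne_zero
    have hle' : (1 + s)⁻¹ ^ n * (1 + s * (g ⬝ᵥ g)) ≤ 1 := by nlinarith
    rw [inv_pow, inv_mul_le_iff₀ (by positivity)] at hle'
    linarith

end Vale.Agent.P084
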