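import Vale.Agent.P084.Core

/-!
Isometries between boundaries of convex bodies in finite-dimensional spaces, and unit spheres.
-/

open Set Metric Matrix Module
open scoped Topology

namespace Vale.Agent.P084

lemma exists_chord {E : Type*} [NormedAddCommGroup E] [NormedSpace ℝ E] {U : Set E}
    (hU : IsOpen U) (hb : Bornology.IsBounded U) (hne : U.Nonempty) (z : E) (hz : z ≠ 0) :
    ∃ c : ℝ, ∃ x ∈ frontier U, ∃ y ∈ frontier U, z = c • (x - y) := by
  obtain ⟨p, hp⟩ := hne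
  obtain ⟨M, hM⟩ := (isBounded_iff_subset_closedBall p).1 hb
  have hM0 : 0 ≤ M := by simpa using hM hp
  have hray : ∀ w : E, w ≠ 0 → ∃ a : ℝ, 0 < a ∧ p + a • w ∈ frontier U := by
    intro w hw
    have hw0 : 0 < ‖w‖ := norm_pos_iff.2 hw
    have hout : p + ((M + 1) / ‖w‖) • w ∉ U := by
      intro h
      have := hM h
      rw [mem_closedBall, dist_eq_norm, add_sub_cancel_left, norm_smul, Real.norm_eq_abs,
        abs_of_pos (by positivity), div_mul_cancel₀ _ hw0.ne'] at this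
      linarith
    obtain ⟨x, hx, hxf⟩ := exists_mem_segment_frontier hU hp hout
    rw [segment_eq_image'] at hx
    obtain ⟨θ, hθ, rfl⟩ := hx
    refine ⟨θ * ((M + 1) / ‖w‖), ?_, ?_⟩
    · have : θ ≠ 0 := by
        intro h0
        simp only [h0, zero_smul, add_zero, hU.frontier_eq] at hxf
        exact hxf.2 hp
      exact mul_pos (hθ.1.lt_of_ne' this) (by positivity)
    · rwa [mul_smul, ← show p + ((M + 1) / ‖w‖) • w - p = ((M + 1) / ‖w‖) • w from
        add_sub_cancel_left _ _]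
  obtain ⟨a, ha, hxa⟩ := hray z hz
  obtain ⟨b, hb', hxb⟩ := hray (-z) (neg_ne_zero.2 hz)
  refine ⟨(a + b)⁻¹, _, hxa, _, hxb, ?_⟩
  rw [show p + a • z - (p + b • -z) = (a + b) • z by module, smul_smul,
    inv_mul_cancel₀ (by positivity), one_smul]

lemma frontier_nonempty_of_bounded {E : Type*} [NormedAddCommGroup E] [NormedSpace ℝ E]
    [Nontrivial E] {U : Set E} (hU : IsOpen U) (hb : Bornology.IsBounded U) (hne : U.Nonempty) :
    (frontier U).Nonempty := by
  obtain ⟨z, hz⟩ := exists_ne (0 : E)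
  obtain ⟨c, x, hx, -⟩ := exists_chord hU hb hne z hz
  exact ⟨x, hx⟩

/-- Euclidean isometries of spanning sets extend linearly. -/
lemma exists_linear_of_dot {n : ℕ} {D : Set (Fin n → ℝ)} (hspan : Submodule.span ℝ D = ⊤)
    (g : (Fin n → ℝ) → (Fin n → ℝ)) (hg : ∀ a ∈ D, ∀ b ∈ D, g a ⬝ᵥ g b = a ⬝ᵥ b) :
    ∃ T : (Fin n → ℝ) →ₗ[ℝ] (Fin n → ℝ), Function.Bijective T ∧ ∀ a ∈ D, T a = g a := by
  let b := Basis.ofSpan (hspan.ge)
  have hbD : ∀ i, b i ∈ D := fun i => Basis.ofSpan_subset hspan.ge (mem_range_self i)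
  let T : (Fin n → ℝ) →ₗ[ℝ] (Fin n → ℝ) := b.constr ℝ (fun i => g (b i))
  have hTb : ∀ i, T (b i) = g (b i) := fun i => b.constr_basis ℝ _ i
  let Bil : (Fin n → ℝ) →ₗ[ℝ] (Fin n → ℝ) →ₗ[ℝ] ℝ := dotProductBilin ℝ ℝ
  have hfix : ∀ a ∈ D, ∀ u, T u ⬝ᵥ g a = u ⬝ᵥ a := by
    intro a ha u
    have : (Bil.flip (g a)).comp T = Bil.flip a := b.ext fun i => by
      simp [Bil, hTb, hg _ (hbD i) a ha]
    exact LinearMap.congr_fun this u
  have hTT : ∀ u v, T u ⬝ᵥ T v = u ⬝ᵥ v := by
    intro u v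
    have : (Bil (T u)).comp T = Bil u := b.ext fun i => by
      simp [Bil, hTb, hfix _ (hbD i) u]
    exact LinearMap.congr_fun this v
  have hinj : Function.Injective T := by
    refine (injective_iff_map_eq_zero T).2 fun u hu => ?_
    have := hTT u u
    rw [hu, zero_dotProduct] at this
    exact dotProduct_self_eq_zero.1 this.symm
  have hbij : Function.Bijective T := ⟨hinj, LinearMap.surjective_of_injective hinj⟩
  refine ⟨T, hbij, fun a ha => ?_⟩
  obtain ⟨u, hu⟩ := hbij.2 (g a - T a)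
  have h1 : T u ⬝ᵥ (g a - T a) = 0 := by rw [dotProduct_sub, hfix a ha u, hTT, sub_self]
  rw [hu] at h1
  exact (sub_eq_zero.1 (dotProduct_self_eq_zero.1 h1)).symm

variable {X Y : Type*} [NormedAddCommGroup X] [NormedSpace ℝ X] [FiniteDimensional ℝ X]
  [NormedAddCommGroup Y] [NormedSpace ℝ Y]

/-- A surjective isometry between the boundaries of two bounded open convex sets in
finite-dimensional normed spaces is the restriction of an affine isometry of the spaces. -/
theorem boundary_isometry_affine [FiniteDimensional ℝ Y] {U : Set X} {V : Set Y}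
    (hU : IsOpen U) (hUc : Convex ℝ U) (hUb : Bornology.IsBounded U) (hUne : U.Nonempty)
    (hV : IsOpen V) (hVc : Convex ℝ V) (hVb : Bornology.IsBounded V) (hVne : V.Nonempty)
    (f : frontier U → frontier V) (hf : Isometry f) (hfs : Function.Surjective f) :
    ∃ A : X ≃ᵃⁱ[ℝ] Y, ∀ x : frontier U, A x = f x := by
  classical
  obtain ⟨JX⟩ := exists_johnData X
  obtain ⟨JY⟩ := exists_johnData Y
  let e := Equiv.ofBijective f ⟨hf.injective, hfs⟩
  let φ : X → Y := fun x => if h : x ∈ frontier U then f ⟨x, h⟩ else 0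
  let ψ : Y → X := fun y => if h : y ∈ frontier V then e.symm ⟨y, h⟩ else 0
  have hφeq : ∀ x : frontier U, φ x = f x := fun x => by simp [φ, x.2]
  have hφmem : ∀ x ∈ frontier U, φ x ∈ frontier V := fun x hx => by simp [φ, hx]
  have hψmem : ∀ y ∈ frontier V, ψ y ∈ frontier U := fun y hy => by simp [ψ, hy]
  have hφd : ∀ x ∈ frontier U, ∀ x' ∈ frontier U, dist (φ x) (φ x') = dist x x' := by
    intro x hx x' hx'
    simp only [φ, dif_pos hx, dif_pos hx']
    exact hf.dist_eq ⟨x, hx⟩ ⟨x', hx'⟩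
  have hφψ : ∀ y ∈ frontier V, φ (ψ y) = y := by
    intro y hy
    simp only [ψ, dif_pos hy]
    rw [hφeq]
    exact congrArg Subtype.val (e.apply_symm_apply ⟨y, hy⟩)
  have hψφ : ∀ x ∈ frontier U, ψ (φ x) = x := by
    intro x hx
    have : φ x = f ⟨x, hx⟩ := by simp [φ, hx]
    simp only [ψ, dif_pos (hφmem x hx)]
    have : e.symm ⟨φ x, hφmem x hx⟩ = ⟨x, hx⟩ :=
      e.symm_apply_eq.2 (Subtype.ext this)
    rw [this]
  have hψd : ∀ y ∈ frontier V, ∀ y' ∈ frontier V, dist (ψ y) (ψ y') = dist y y' := by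
    intro y hy y' hy'
    conv_rhs => rw [← hφψ y hy, ← hφψ y' hy']
    exact (hφd _ (hψmem y hy) _ (hψmem y' hy')).symm
  obtain ⟨h1, h2⟩ := boundary_contraction JX JY hV hVb hVc hVne hφd hψd hψmem hφψ
  obtain ⟨h3, h4⟩ := boundary_contraction JY JX hU hUb hUc hUne hψd hφd hφmem hψφ
  have hdim : finrank ℝ X = finrank ℝ Y := le_antisymm h3 h1
  rcases subsingleton_or_nontrivial X with hX | hX
  · have hY : Subsingleton Y := by
      apply (finrank_zero_iff (R := ℝ) (M := Y)).1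
      rw [← hdim]
      exact finrank_zero_iff.2 hX
    refine ⟨LinearIsometryEquiv.toAffineIsometryEquiv
      { toLinearEquiv := LinearEquiv.ofFinrankEq X Y hdim
        norm_map' := fun x => by simp [Subsingleton.elim _ (0 : Y), Subsingleton.elim x 0] },
      fun x => Subsingleton.elim _ _⟩
  obtain ⟨x₀, hx₀⟩ := frontier_nonempty_of_bounded hU hUb hUne
  revert JY
  rw [← hdim]
  intro JY h2 h4
  -- Euclidean isometry in John coordinates
  have heucl : ∀ x ∈ frontier U, ∀ x' ∈ frontier U,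
      (JY.e (φ x') - JY.e (φ x)) ⬝ᵥ (JY.e (φ x') - JY.e (φ x))
        = (JX.e x' - JX.e x) ⬝ᵥ (JX.e x' - JX.e x) := by
    intro x hx x' hx'
    refine le_antisymm (h4 rfl x hx x' hx') ?_
    have := h2 rfl (φ x) (hφmem x hx) (φ x') (hφmem x' hx')
    rwa [hψφ x hx, hψφ x' hx'] at this
  let D : Set (Fin (finrank ℝ X) → ℝ) := (fun x => JX.e (x - x₀)) '' frontier U
  let g : (Fin (finrank ℝ X) → ℝ) → (Fin (finrank ℝ X) → ℝ) :=
    fun a => JY.e (φ (JX.e.symm a + x₀) - φ x₀)
  have hgD : ∀ x, g (JX.e (x - x₀)) = JY.e (φ x - φ x₀) := fun x => by simp [g]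
  have hg : ∀ a ∈ D, ∀ b ∈ D, g a ⬝ᵥ g b = a ⬝ᵥ b := by
    rintro _ ⟨x, hx, rfl⟩ _ ⟨x', hx', rfl⟩
    rw [hgD, hgD]
    have e1 := heucl x₀ hx₀ x hx
    have e2 := heucl x₀ hx₀ x' hx'
    have e3 := heucl x hx x' hx'
    simp only [map_sub, sub_dotProduct, dotProduct_sub] at e1 e2 e3 ⊢
    simp only [dotProduct_comm (JY.e (φ x')) (JY.e (φ x)),
      dotProduct_comm (JY.e (φ x)) (JY.e (φ x₀)), dotProduct_comm (JY.e (φ x')) (JY.e (φ x₀)),
      dotProduct_comm (JX.e x') (JX.e x), dotProduct_comm (JX.e x) (JX.e x₀),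
      dotProduct_comm (JX.e x') (JX.e x₀)] at e1 e2 e3 ⊢
    linarith
  have hspan : Submodule.span ℝ D = ⊤ := by
    rw [Submodule.eq_top_iff']
    intro z
    rcases eq_or_ne z 0 with rfl | hz
    · exact Submodule.zero_mem _
    obtain ⟨c, x, hx, y, hy, hzc⟩ := exists_chord hU hUb hUne (JX.e.symm z) (by simpa using hz)
    have : z = c • (JX.e (x - x₀) - JX.e (y - x₀)) := by
      rw [← map_sub, sub_sub_sub_cancel_right, ← map_smul, ← hzc,
        ContinuousLinearEquiv.apply_symm_apply]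
    rw [this]
    exact Submodule.smul_mem _ _ (Submodule.sub_mem _
      (Submodule.subset_span ⟨x, hx, rfl⟩) (Submodule.subset_span ⟨y, hy, rfl⟩))
  obtain ⟨T, hTbij, hTD⟩ := exists_linear_of_dot hspan g hg
  let L : X ≃ₗ[ℝ] Y :=
    (JX.e.toLinearEquiv.trans (LinearEquiv.ofBijective T hTbij)).trans JY.e.symm.toLinearEquiv
  have hL : ∀ x ∈ frontier U, L (x - x₀) = φ x - φ x₀ := by
    intro x hx
    change JY.e.symm (T (JX.e (x - x₀))) = _
    rw [hTD _ ⟨x, hx, rfl⟩, hgD, ContinuousLinearEquiv.symm_apply_apply]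
  have hLnorm : ∀ z, ‖L z‖ = ‖z‖ := by
    intro z
    rcases eq_or_ne z 0 with rfl | hz
    · simp
    obtain ⟨c, x, hx, y, hy, rfl⟩ := exists_chord hU hUb hUne z hz
    have : L (x - y) = φ x - φ y := by
      rw [show x - y = (x - x₀) - (y - x₀) by abel, map_sub, hL x hx, hL y hy]
      abel
    rw [map_smul, this, norm_smul, norm_smul, ← dist_eq_norm, ← dist_eq_norm, hφd x hx y hy]
  let Li : X ≃ₗᵢ[ℝ] Y := { toLinearEquiv := L, norm_map' := hLnorm }
  refine ⟨(AffineIsometryEquiv.constVAdd ℝ X (-x₀)).trans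
    (Li.toAffineIsometryEquiv.trans (AffineIsometryEquiv.constVAdd ℝ Y (φ x₀))), fun x => ?_⟩
  simp only [AffineIsometryEquiv.coe_trans, Function.comp_apply,
    LinearIsometryEquiv.coe_toAffineIsometryEquiv, AffineIsometryEquiv.coe_constVAdd,
    vadd_eq_add]
  rw [← hφeq x, neg_add_eq_sub]
  change φ x₀ + L ((x : X) - x₀) = φ x
  rw [hL x x.2]
  abel

/-- Every finite-dimensional real normed space has the Mazur-Ulam property. -/
theorem sphere_isometry_linear (f : sphere (0 : X) 1 → sphere (0 : Y) 1) (hf : Isometry f)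
    (hfs : Function.Surjective f) :
    ∃ T : X ≃ₗᵢ[ℝ] Y, ∀ x : sphere (0 : X) 1, T x = f x := by
  have hfinY : FiniteDimensional ℝ Y := by
    have hS : IsCompact (sphere (0 : Y) 1) := by
      have : CompactSpace (sphere (0 : X) 1) :=
        isCompact_iff_compactSpace.1 (isCompact_sphere 0 1)
      have h2 := isCompact_range (continuous_subtype_val.comp hf.continuous)
      rwa [range_comp, hfs.range_eq, image_univ, Subtype.range_coe] at h2
    rcases subsingleton_or_nontrivial Y with hY | hY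
    · infer_instance
    obtain ⟨y₀, hy₀⟩ := (NormedSpace.sphere_nonempty (x := (0 : Y))).2 zero_le_one
    have hball : IsCompact (closedBall (0 : Y) 1) := by
      refine IsCompact.of_isClosed_subset
        (((isCompact_Icc (a := (0:ℝ)) (b := 1)).prod hS).image continuous_smul)
        isClosed_closedBall ?_
      intro y hy
      rw [mem_closedBall, dist_zero_right] at hy
      rcases eq_or_ne y 0 with rfl | hy0
      · exact ⟨(0, y₀), ⟨by simp, hy₀⟩, by simp⟩
      · refine ⟨(‖y‖, ‖y‖⁻¹ • y), ⟨⟨norm_nonneg _, hy⟩, ?_⟩, ?_⟩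
        · simp [norm_smul, hy0]
        · simp [smul_smul, hy0]
    exact FiniteDimensional.of_isCompact_closedBall ℝ zero_lt_one hball
  have hfX : frontier (ball (0 : X) 1) = sphere (0 : X) 1 := frontier_ball _ one_ne_zero
  have hfY : frontier (ball (0 : Y) 1) = sphere (0 : Y) 1 := frontier_ball _ one_ne_zero
  let f' : frontier (ball (0 : X) 1) → frontier (ball (0 : Y) 1) := fun x =>
    ⟨f ⟨x, hfX.subset x.2⟩, hfY.symm.subset (f ⟨x, hfX.subset x.2⟩).2⟩
  have hf' : Isometry f' := Isometry.of_dist_eq fun x y =>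
    hf.dist_eq ⟨x, hfX.subset x.2⟩ ⟨y, hfX.subset y.2⟩
  have hf's : Function.Surjective f' := by
    intro y
    obtain ⟨x, hx⟩ := hfs ⟨y, hfY.subset y.2⟩
    exact ⟨⟨x, hfX.symm.subset x.2⟩, Subtype.ext (show (f ⟨x, _⟩ : Y) = y by rw [Subtype.coe_eta, hx])⟩
  obtain ⟨A, hA⟩ := boundary_isometry_affine isOpen_ball (convex_ball 0 1) isBounded_ball
    ⟨0, mem_ball_self zero_lt_one⟩ isOpen_ball (convex_ball 0 1) isBounded_ball
    ⟨0, mem_ball_self zero_lt_one⟩ f' hf' hf's
  have hAS : ∀ x : sphere (0 : X) 1, A x = f x := fun x => hA ⟨x, hfX.symm.subset x.2⟩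
  set T := A.linearIsometryEquiv with hT
  have hdec : ∀ z, A z = T z + A 0 := fun z => by
    have := A.map_vadd 0 z
    simpa using this
  have hA0 : A 0 = 0 := by
    by_contra hb
    have hw : ‖‖A 0‖⁻¹ • A 0‖ = 1 := by simp [norm_smul, hb]
    have hxs : T.symm (‖A 0‖⁻¹ • A 0) ∈ sphere (0 : X) 1 := by
      rw [mem_sphere, dist_zero_right, LinearIsometryEquiv.norm_map, hw]
    have h1 := hAS ⟨_, hxs⟩
    rw [hdec, LinearIsometryEquiv.apply_symm_apply] at h1
    have h2 : ‖‖A 0‖⁻¹ • A 0 + A 0‖ = 1 := by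
      rw [h1]; simp
    rw [show ‖A 0‖⁻¹ • A 0 + A 0 = (‖A 0‖⁻¹ + 1) • A 0 by rw [add_smul, one_smul], norm_smul,
      Real.norm_eq_abs, abs_of_pos (by positivity), add_mul,
      inv_mul_cancel₀ (norm_ne_zero_iff.2 hb), one_mul] at h2
    exact hb (norm_eq_zero.1 (by linarith))
  exact ⟨T, fun x => by rw [← hAS x, hdec, hA0, add_zero]⟩

end Vale.Agent.P084
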